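import Vale.Agent.Lib.P154.AFSound
import Vale.Agent.Lib.P154.ST3.Prog

/-! Real values of the programs. -/

namespace Vale.Agent.Lib.P154

namespace ST3

lemma evR_lc {x y : Ex} {env : List ℝ} {v r : ℝ} (h1 : Ex.evR x env = v) (h2 : Ex.evR y (v :: env) = r) :
    Ex.evR (Ex.l x y) env = r := by
  subst h1; subst h2; rfl

/-- Upper bound polynomial for the quartic coefficient. -/
noncomputable def AbF (x y : ℝ) : ℝ := ((((((((((((((((((((((((rv 281475011235280 * y) + rv 281474997195056) * y) + rv 281474982751664) * y) + rv 281474979027808) * y) + rv 281474977697744) * y) + rv 281474978743456) * y) + rv 281474977250864) * x) + ((((((((((((rv 281475020028896 * y) + rv 281475005182704) * y) + rv 281474988151712) * y) + rv 281474981783376) * y) + rv 281474977751488) * y) + rv 281474978917504) * y) + rv 281474977336560)) * x) + ((((((((((((rv 281474955202976 * y) + rv 281474966011488) * y) + rv 281474973913680) * y) + rv 281474975163152) * y) + rv 281474976232976) * y) + rv 281474969213808)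 * y) + rv 281474974556544)) * x) + ((((((((((((rv 281474975987440 * y) + rv 281474975705200) * y) + rv 281474979843056) * y) + rv 281474983179088) * y) + rv 281474980888816) * y) + rv 281474981224928) * y) + rv 281474977799168)) * x) + ((((((((((((rv 281475004042960 * y) + rv 281474985140256) * y) + rv 281474987605808) * y) + rv 281474981515632) * y) + rv 281474982279408) * y) + rv 281474985022192) * y) + rv 281474978688976)) * x) + ((((((((((((rv 281474963557392 * y) + rv 281474957541024) * y) + rv 281474974202512) * y) + rv 281474966202320) * y) + rv 281474977065600) * y) + rv 281474981893600) * y) + rv 281474977911808)) * x) + ((((((((((((rv 281474993834112 * y) + rv 281474987873856) * y) + rv 281474987003792) * y) + rv 281474981809536) * y) + rv 281475000968096) * y) + rv 281474989238320) * y) + rv 281474998693872))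

/-- Upper bound polynomial for the quadratic coefficient. -/
noncomputable def BbF (x y : ℝ) : ℝ := ((((((((((((((((((((((((((((((((rv 281475234850432 * y) + rv 281475227045232) * y) + rv 281475122598352) * y) + rv 281475050340112) * y) + rv 281475032635040) * y) + rv 281475016167984) * y) + rv 281474991912304) * y) + rv 281475063473584) * y) + rv 281475001176064) * x) + ((((((((((((((((rv 281474904822272 * y) + rv 281474981418688) * y) + rv 281475012685680) * y) + rv 281474992185872) * y) + rv 281474936086560) * y) + rv 281474926550448) * y) + rv 281474954825536) * y) + rv 281474842635584) * y) + rv 281474938869872)) * x) + ((((((((((((((((rv 281474661581168 * y) + rv 281474751308160) * y) + rv 281474921933024) * y) + rv 281474987336096) * y) + rv 281474988141440) * y) + rv 281474977421200) * y) + rv 281474975298912) * y) + rv 281474954650688) * y) + rv 281474970420000)) * x) + ((((((((((((((((rv 281474943296576 * y) + rv 281474959376528) * y) + rv 281474987042352) * y) + rv 281475026700624)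 * y) + rv 281475101290896) * y) + rv 281475084958352) * y) + rv 281475018903904) * y) + rv 281475192281616) * y) + rv 281475037336896)) * x) + ((((((((((((((((rv 281474746541488 * y) + rv 281474713177104) * y) + rv 281474784397536) * y) + rv 281474838591616) * y) + rv 281474846141136) * y) + rv 281474891930688) * y) + rv 281474947728752) * y) + rv 281474733268544) * y) + rv 281474907426416)) * x) + ((((((((((((((((rv 281475164604512 * y) + rv 281474904911648) * y) + rv 281475019558208) * y) + rv 281474965480240) * y) + rv 281474952027776) * y) + rv 281475020278080) * y) + rv 281475013384768) * y) + rv 281475069018720) * y) + rv 281475001484752)) * x) + ((((((((((((((((rv 281475243280768 * y) + rv 281474934846688) * y) + rv 281475133846192) * y) + rv 281474937576784) * y) + rv 281475077711232) * y) + rv 281474973257056) * y) + rv 281475004664464) * y) + rv 281475189015312) * y) + rv 281475034764944)) * x) + ((((((((((((((((rv 281474633272672 * y) + rv 281474552202448) * y) + rv 281474829076736)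 * y) + rv 281474697671472) * y) + rv 281474877444832) * y) + rv 281474688057088) * y) + rv 281474882076960) * y) + rv 281474649900784) * y) + rv 281474883338736)) * x) + ((((((((((((((((rv 281475199038096 * y) + rv 281475134438240) * y) + rv 281475100463248) * y) + rv 281475045520944) * y) + rv 281475090400784) * y) + rv 281475010320128) * y) + rv 281475139823312) * y) + rv 281474975637536) * y) + rv 281475177156272))

/-- Value of h. -/
noncomputable def ch (r b l u : ℝ) : ℝ := ((b * b) - b)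

/-- Value of g. -/
noncomputable def cg (r b l u : ℝ) : ℝ := (ch r b l u + rv 281475245146112)

/-- Value of g2. -/
noncomputable def cg2 (r b l u : ℝ) : ℝ := (cg r b l u * cg r b l u)

/-- Value of g3. -/
noncomputable def cg3 (r b l u : ℝ) : ℝ := (cg2 r b l u * cg r b l u)

/-- Value of g4. -/
noncomputable def cg4 (r b l u : ℝ) : ℝ := (cg3 r b l u * cg r b l u)

/-- Value of g5. -/
noncomputable def cg5 (r b l u : ℝ) : ℝ := (cg4 r b l u * cg r b l u)

/-- Value of g6. -/
noncomputable def cg6 (r b l u : ℝ) : ℝ := (cg5 r b l u * cg r b l u)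

/-- Value of g7. -/
noncomputable def cg7 (r b l u : ℝ) : ℝ := (cg6 r b l u * cg r b l u)

/-- Value of g8. -/
noncomputable def cg8 (r b l u : ℝ) : ℝ := (cg7 r b l u * cg r b l u)

/-- Value of g9. -/
noncomputable def cg9 (r b l u : ℝ) : ℝ := (cg8 r b l u * cg r b l u)

/-- Value of h2. -/
noncomputable def ch2 (r b l u : ℝ) : ℝ := (ch r b l u * ch r b l u)

/-- Value of h3. -/
noncomputable def ch3 (r b l u : ℝ) : ℝ := (ch2 r b l u * ch r b l u)

/-- Value of h4. -/
noncomputable def ch4 (r b l u : ℝ) : ℝ := (ch3 r b l u * ch r b l u)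

/-- Value of h5. -/
noncomputable def ch5 (r b l u : ℝ) : ℝ := (ch4 r b l u * ch r b l u)

/-- Value of h6. -/
noncomputable def ch6 (r b l u : ℝ) : ℝ := (ch5 r b l u * ch r b l u)

/-- Value of Mt. -/
noncomputable def cMt (r b l u : ℝ) : ℝ := ((((((((((((((((((((((((((((((((rv 281474981189632 * ch6 r b l u) + (rv 281474988488704 * (cg3 r b l u * ch4 r b l u))) + (rv 281474978369536 * (cg6 r b l u * ch2 r b l u))) + (rv 281474976636928 * cg9 r b l u)) * r) + (((rv 281475088685056 * (cg r b l u * ch5 r b l u)) + (rv 281475024652288 * (cg4 r b l u * ch3 r b l u))) + (rv 281474990313472 * (cg7 r b l u * ch r b l u)))) * r) + (((rv 281475520159744 * (cg2 r b l u * ch4 r b l u)) + (rv 281475238481920 * (cg5 r b l u * ch2 r b l u))) + (rv 281474999271424 * cg8 r b l u))) * r) + (((rv 281475357423616 * ch5 r b l u) + (rv 281476894541824 * (cg3 r b l u * ch3 r b l u))) + (rv 281475607748608 * (cg6 r b l u * ch r b l u)))) * r) + (((rv 281477646180352 * (cg r b l u * ch4 r b l u)) + (rv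 281480186257408 * (cg4 r b l u * ch2 r b l u))) + (rv 281475307159552 * cg7 r b l u))) * r) + ((rv 281486162206720 * (cg2 r b l u * ch3 r b l u)) + (rv 281480430112768 * (cg5 r b l u * ch r b l u)))) * r) + (((rv 281480566472704 * ch4 r b l u) + (rv 281495749206016 * (cg3 r b l u * ch2 r b l u))) + (rv 281476791525376 * cg6 r b l u))) * r) + ((rv 281494406508544 * (cg r b l u * ch3 r b l u)) + (rv 281491329949696 * (cg4 r b l u * ch r b l u)))) * r) + ((rv 281505702486016 * (cg2 r b l u * ch2 r b l u)) + (rv 281479666696192 * cg5 r b l u))) * r) + ((rv 281483580823552 * ch3 r b l u) + (rv 281496728940544 * (cg3 r b l u * ch r b l u)))) * r) + ((rv 281493094168576 * (cg r b l u * ch2 r b l u)) + (rv 281479749971968 * cg4 r b l u))) * r) + (rv 281485212663808 * (cg2 r b l u * ch r b l u))) * r) + ((rv 281479818483712 * ch2 r b l u) + (rv 281476250066944 * cg3 r b l u))) * r) + (rv 281476221865984 * (cg r b l u * ch r b l u))) * r) + (rv 281475045388288 * cg2 r b l u))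

/-- Value of st. -/
noncomputable def cst (r b l u : ℝ) : ℝ := ((((((((((((((((rv 281475782017024 * ch3 r b l u) + (rv 281477392629760 * (cg3 r b l u * ch r b l u))) * r) + ((rv 281494304063488 * (cg r b l u * ch2 r b l u)) + (rv 281479808548864 * cg4 r b l u))) * r) + (rv 281542622445568 * (cg2 r b l u * ch r b l u))) * r) + ((rv 281542622445568 * ch2 r b l u) + (rv 281520073867264 * cg3 r b l u))) * r) + (rv 281644091047936 * (cg r b l u * ch r b l u))) * r) + (rv 281542622445568 * cg2 r b l u)) * r) + (rv 281542622445568 * ch r b l u)) * r) + (rv 281494304063488 * cg r b l u))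

/-- Value of ts. -/
noncomputable def cts (r b l u : ℝ) : ℝ := (r * cst r b l u)

/-- Value of S. -/
noncomputable def cS (r b l u : ℝ) : ℝ := (rv 281475782017024 + (r * cts r b l u))

/-- Value of y0. -/
noncomputable def cy0 (r b l u : ℝ) : ℝ := (rv 281475245146112 + (r * b))

/-- Value of y1. -/
noncomputable def cy1 (r b l u : ℝ) : ℝ := (rv 281475245146112 + (r * (rv 281475245146112 - b)))

/-- Value of y2. -/
noncomputable def cy2 (r b l u : ℝ) : ℝ := (rv 281475245146112 - r)

/-- Value of D0. -/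
noncomputable def cD0 (r b l u : ℝ) : ℝ := ((((((((((((((((rv 281475245146112 * cy0 r b l u) + rv 281475245146112) * cy0 r b l u) + rv 281475245146112) * cy0 r b l u) + rv 281475245146112) * cy0 r b l u) + rv 281475245146112) * cy0 r b l u) + rv 281475245146112) * cy0 r b l u) + rv 281475245146112) * cy0 r b l u) + rv 281475245146112) * cy0 r b l u) + rv 281475245146112)

/-- Value of D1. -/
noncomputable def cD1 (r b l u : ℝ) : ℝ := ((((((((((((((((rv 281475245146112 * cy1 r b l u) + rv 281475245146112) * cy1 r b l u) + rv 281475245146112) * cy1 r b l u) + rv 281475245146112) * cy1 r b l u) + rv 281475245146112) * cy1 r b l u) + rv 281475245146112) * cy1 r b l u) + rv 281475245146112) * cy1 r b l u) + rv 281475245146112) * cy1 r b l u) + rv 281475245146112)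

/-- Value of D2. -/
noncomputable def cD2 (r b l u : ℝ) : ℝ := ((((((((((((((((rv 281475245146112 * cy2 r b l u) + rv 281475245146112) * cy2 r b l u) + rv 281475245146112) * cy2 r b l u) + rv 281475245146112) * cy2 r b l u) + rv 281475245146112) * cy2 r b l u) + rv 281475245146112) * cy2 r b l u) + rv 281475245146112) * cy2 r b l u) + rv 281475245146112) * cy2 r b l u) + rv 281475245146112)

/-- Value of P0. -/
noncomputable def cP0 (r b l u : ℝ) : ℝ := ((rv 281475782017024 * (b * cD0 r b l u)) - cts r b l u)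

/-- Value of P1. -/
noncomputable def cP1 (r b l u : ℝ) : ℝ := ((rv 281475782017024 * ((rv 281475245146112 - b) * cD1 r b l u)) - cts r b l u)

/-- Value of Pt. -/
noncomputable def cPt (r b l u : ℝ) : ℝ := ((rv 281475782017024 * cD2 r b l u) + cts r b l u)

/-- Value of n0. -/
noncomputable def cn0 (r b l u : ℝ) : ℝ := (rv 281474977759232 * cP0 r b l u)

/-- Value of n1. -/
noncomputable def cn1 (r b l u : ℝ) : ℝ := (rv 281474977759232 * cP1 r b l u)

/-- Value of n2. -/
noncomputable def cn2 (r b l u : ℝ) : ℝ := (rv 281474977759232 * cPt r b l u)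

/-- Value of Nn. -/
noncomputable def cNn (r b l u : ℝ) : ℝ := (rv 281543696187392 * (((cn0 r b l u * cn0 r b l u) + (cn1 r b l u * cn1 r b l u)) + (cn2 r b l u * cn2 r b l u)))

/-- Value of aa. -/
noncomputable def caa (r b l u : ℝ) : ℝ := (cP0 r b l u * (cPt r b l u)⁻¹)

/-- Value of iS. -/
noncomputable def ciS (r b l u : ℝ) : ℝ := (cS r b l u)⁻¹

/-- Value of tt. -/
noncomputable def ctt (r b l u : ℝ) : ℝ := (r * (cPt r b l u * ciS r b l u))

/-- Value of Xv. -/
noncomputable def cXv (r b l u : ℝ) : ℝ := ((r * r) * (rv 281543696187392 * (cNn r b l u * (ciS r b l u * ciS r b l u))))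

/-- Value of tp3. -/
noncomputable def ctp3 (r b l u : ℝ) : ℝ := (l * ctt r b l u)

/-- Value of x3. -/
noncomputable def cx3 (r b l u : ℝ) : ℝ := (caa r b l u - rv 281475312254976)

/-- Value of y3. -/
noncomputable def cy3 (r b l u : ℝ) : ℝ := (ctp3 r b l u - rv 281475054305280)

/-- Value of Ab3. -/
noncomputable def cAb3 (r b l u : ℝ) : ℝ := AbF (cx3 r b l u) (cy3 r b l u)

/-- Value of Bb3. -/
noncomputable def cBb3 (r b l u : ℝ) : ℝ := BbF (cx3 r b l u) (cy3 r b l u)

/-- Value of B23. -/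
noncomputable def cB23 (r b l u : ℝ) : ℝ := (cBb3 r b l u * cBb3 r b l u)

/-- Value of L23. -/
noncomputable def cL23 (r b l u : ℝ) : ℝ := (l * l)

/-- Value of L43. -/
noncomputable def cL43 (r b l u : ℝ) : ℝ := (cL23 r b l u * cL23 r b l u)

/-- Value of rhs3. -/
noncomputable def crhs3 (r b l u : ℝ) : ℝ := (((cL43 r b l u * ((rv 281475782017024 * cAb3 r b l u) + (rv 281475131637648 * cB23 r b l u))) - (rv 281474998476000 * ((cL43 r b l u * cL23 r b l u) * (cXv r b l u * (cB23 r b l u * cBb3 r b l u))))) + rv 281474976727040)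

/-- Value of the program K3c. -/
noncomputable def RK3c (r b l u : ℝ) : ℝ := ((cMt r b l u * (cS r b l u * cS r b l u)) - ((cNn r b l u * cNn r b l u) * crhs3 r b l u))

set_option maxRecDepth 100000 in
theorem evR_K3c (r b l u : ℝ) : Ex.evR K3c [r, b, l, u] = RK3c r b l u :=
  evR_lc (v := ch r b l u) rfl (evR_lc (v := cg r b l u) rfl (evR_lc (v := cg2 r b l u) rfl (evR_lc (v := cg3 r b l u) rfl (evR_lc (v := cg4 r b l u) rfl (evR_lc (v := cg5 r b l u) rfl (evR_lc (v := cg6 r b l u) rfl (evR_lc (v := cg7 r b l u) rfl (evR_lc (v := cg8 r b l u) rfl (evR_lc (v := cg9 r b l u) rfl (evR_lc (v := ch2 r b l u) rfl (evR_lc (v := ch3 r b l u) rfl (evR_lc (v := ch4 r b l u) rfl (evR_lc (v := ch5 r b l u) rfl (evR_lc (v := ch6 r b l u) rfl (evR_lc (v := cMt r b l u) rfl (evR_lc (v := cst r b l u) rfl (evR_lc (v := cts r b l u) rfl (evR_lc (v := cS r b l u) rfl (evR_lc (v := cy0 r b l u) rfl (evR_lc (v := cy1 r b l u) rfl (evR_lc (v := cy2 r b l u) rfl (evR_lc (v := cD0 r b l u) rfl (evR_lc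 (v := cD1 r b l u) rfl (evR_lc (v := cD2 r b l u) rfl (evR_lc (v := cP0 r b l u) rfl (evR_lc (v := cP1 r b l u) rfl (evR_lc (v := cPt r b l u) rfl (evR_lc (v := cn0 r b l u) rfl (evR_lc (v := cn1 r b l u) rfl (evR_lc (v := cn2 r b l u) rfl (evR_lc (v := cNn r b l u) rfl (evR_lc (v := caa r b l u) rfl (evR_lc (v := ciS r b l u) rfl (evR_lc (v := ctt r b l u) rfl (evR_lc (v := cXv r b l u) rfl (evR_lc (v := ctp3 r b l u) rfl (evR_lc (v := cx3 r b l u) rfl (evR_lc (v := cy3 r b l u) rfl (evR_lc (v := cAb3 r b l u) rfl (evR_lc (v := cBb3 r b l u) rfl (evR_lc (v := cB23 r b l u) rfl (evR_lc (v := cL23 r b l u) rfl (evR_lc (v := cL43 r b l u) rfl (evR_lc (v := crhs3 r b l u) rfl (rfl)))))))))))))))))))))))))))))))))))))))))))))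

/-- Value of xa. -/
noncomputable def cxa (r b l u : ℝ) : ℝ := (caa r b l u - rv 281475312254976)

/-- Value of ya. -/
noncomputable def cya (r b l u : ℝ) : ℝ := (ctt r b l u - rv 281475054305280)

/-- Value of Aba. -/
noncomputable def cAba (r b l u : ℝ) : ℝ := AbF (cxa r b l u) (cya r b l u)

/-- Value of NN. -/
noncomputable def cNN (r b l u : ℝ) : ℝ := (cNn r b l u * cNn r b l u)

/-- Value of the program KAu. -/
noncomputable def RKAu (r b l u : ℝ) : ℝ := ((cNN r b l u * cAba r b l u) - (cMt r b l u * (cS r b l u * cS r b l u)))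

set_option maxRecDepth 100000 in
theorem evR_KAu (r b l u : ℝ) : Ex.evR KAu [r, b, l, u] = RKAu r b l u :=
  evR_lc (v := ch r b l u) rfl (evR_lc (v := cg r b l u) rfl (evR_lc (v := cg2 r b l u) rfl (evR_lc (v := cg3 r b l u) rfl (evR_lc (v := cg4 r b l u) rfl (evR_lc (v := cg5 r b l u) rfl (evR_lc (v := cg6 r b l u) rfl (evR_lc (v := cg7 r b l u) rfl (evR_lc (v := cg8 r b l u) rfl (evR_lc (v := cg9 r b l u) rfl (evR_lc (v := ch2 r b l u) rfl (evR_lc (v := ch3 r b l u) rfl (evR_lc (v := ch4 r b l u) rfl (evR_lc (v := ch5 r b l u) rfl (evR_lc (v := ch6 r b l u) rfl (evR_lc (v := cMt r b l u) rfl (evR_lc (v := cst r b l u) rfl (evR_lc (v := cts r b l u) rfl (evR_lc (v := cS r b l u) rfl (evR_lc (v := cy0 r b l u) rfl (evR_lc (v := cy1 r b l u) rfl (evR_lc (v := cy2 r b l u) rfl (evR_lc (v := cD0 r b l u) rfl (evR_lc (v := cD1 r b l u) rfl (evR_lc (v := cD2 r b l u) rfl (evR_lc (v := cP0 r b l u) rfl (evR_lc (v := cP1 r b l u) rfl (evR_lc (v := cPt r b l u) rfl (evR_lc (v := cn0 r b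 l u) rfl (evR_lc (v := cn1 r b l u) rfl (evR_lc (v := cn2 r b l u) rfl (evR_lc (v := cNn r b l u) rfl (evR_lc (v := caa r b l u) rfl (evR_lc (v := ciS r b l u) rfl (evR_lc (v := ctt r b l u) rfl (evR_lc (v := cxa r b l u) rfl (evR_lc (v := cya r b l u) rfl (evR_lc (v := cAba r b l u) rfl (evR_lc (v := cNN r b l u) rfl (rfl)))))))))))))))))))))))))))))))))))))))

/-- Value of Wt. -/
noncomputable def cWt (r b l u : ℝ) : ℝ := ((((((((((((((((rv 281392325853184 * ch3 r b l u) + (rv 281480244756480 * (cg3 r b l u * ch r b l u))) * r) + ((rv 281494838837248 * (cg r b l u * ch2 r b l u)) + (rv 281430412230656 * cg4 r b l u))) * r) + (rv 281011107659776 * (cg2 r b l u * ch r b l u))) * r) + ((rv 280708054515712 * ch2 r b l u) + (rv 281299566723072 * cg3 r b l u))) * r) + (rv 281137968578560 * (cg r b l u * ch r b l u))) * r) + (rv 280845805944832 * cg2 r b l u)) * r) + (rv 280790705373184 * ch r b l u)) * r) + (rv 281577489694720 * cg r b l u))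

/-- Value of Bba. -/
noncomputable def cBba (r b l u : ℝ) : ℝ := BbF (cxa r b l u) (cya r b l u)

/-- Value of Ws. -/
noncomputable def cWs (r b l u : ℝ) : ℝ := (rv 281474977759232 * (cWt r b l u * cS r b l u))

/-- Value of the program KBu. -/
noncomputable def RKBu (r b l u : ℝ) : ℝ := ((cNn r b l u * cBba r b l u) - cWs r b l u)

set_option maxRecDepth 100000 in
theorem evR_KBu (r b l u : ℝ) : Ex.evR KBu [r, b, l, u] = RKBu r b l u :=
  evR_lc (v := ch r b l u) rfl (evR_lc (v := cg r b l u) rfl (evR_lc (v := cg2 r b l u) rfl (evR_lc (v := cg3 r b l u) rfl (evR_lc (v := cg4 r b l u) rfl (evR_lc (v := cg5 r b l u) rfl (evR_lc (v := cg6 r b l u) rfl (evR_lc (v := cg7 r b l u) rfl (evR_lc (v := cg8 r b l u) rfl (evR_lc (v := cg9 r b l u) rfl (evR_lc (v := ch2 r b l u) rfl (evR_lc (v := ch3 r b l u) rfl (evR_lc (v := ch4 r b l u) rfl (evR_lc (v := ch5 r b l u) rfl (evR_lc (v := ch6 r b l u) rfl (evR_lc (v := cMt r b l u) rfl (evR_lc (v := cst r b l u) rfl (evR_lc (v := cts r b l u)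 rfl (evR_lc (v := cS r b l u) rfl (evR_lc (v := cy0 r b l u) rfl (evR_lc (v := cy1 r b l u) rfl (evR_lc (v := cy2 r b l u) rfl (evR_lc (v := cD0 r b l u) rfl (evR_lc (v := cD1 r b l u) rfl (evR_lc (v := cD2 r b l u) rfl (evR_lc (v := cP0 r b l u) rfl (evR_lc (v := cP1 r b l u) rfl (evR_lc (v := cPt r b l u) rfl (evR_lc (v := cn0 r b l u) rfl (evR_lc (v := cn1 r b l u) rfl (evR_lc (v := cn2 r b l u) rfl (evR_lc (v := cNn r b l u) rfl (evR_lc (v := caa r b l u) rfl (evR_lc (v := ciS r b l u) rfl (evR_lc (v := ctt r b l u) rfl (evR_lc (v := cWt r b l u) rfl (evR_lc (v := cxa r b l u) rfl (evR_lc (v := cya r b l u) rfl (evR_lc (v := cBba r b l u) rfl (evR_lc (v := cWs r b l u) rfl (rfl))))))))))))))))))))))))))))))))))))))))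

/-- Value of Hq. -/
noncomputable def cHq (r b l u : ℝ) : ℝ := ((((((((((((((((rv 281476184670208 * ch3 r b l u) + (rv 281477124194304 * (cg3 r b l u * ch r b l u))) * r) + ((rv 281494706716672 * (cg r b l u * ch2 r b l u)) + (rv 281480076984320 * cg4 r b l u))) * r) + (rv 281541817139200 * (cg2 r b l u * ch r b l u))) * r) + ((rv 281546246324224 * ch2 r b l u) + (rv 281519805431808 * cg3 r b l u))) * r) + (rv 281640064516096 * (cg r b l u * ch r b l u))) * r) + (rv 281544233058304 * cg2 r b l u)) * r) + (rv 281545038364672 * ch r b l u)) * r) + (rv 281493498757120 * cg r b l u))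

/-- Value of Hp. -/
noncomputable def cHp (r b l u : ℝ) : ℝ := (((((((((((((((rv 281477392629760 * (cg3 r b l u * ch r b l u)) * r) + ((rv 281496719982592 * (cg r b l u * ch2 r b l u)) + (rv 281479808548864 * cg4 r b l u))) * r) + (rv 281540206526464 * (cg2 r b l u * ch r b l u))) * r) + ((rv 281540206526464 * ch2 r b l u) + (rv 281520879173632 * cg3 r b l u))) * r) + (rv 281648922886144 * (cg r b l u * ch r b l u))) * r) + (rv 281540206526464 * cg2 r b l u)) * r) + (rv 281540206526464 * ch r b l u)) * r) + (rv 281496719982592 * cg r b l u))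

/-- Value of the program KRl. -/
noncomputable def RKRl (r b l u : ℝ) : ℝ := (cHq r b l u - (rv 281475200843776 * cHp r b l u))

set_option maxRecDepth 100000 in
theorem evR_KRl (r b l u : ℝ) : Ex.evR KRl [r, b, l, u] = RKRl r b l u :=
  evR_lc (v := ch r b l u) rfl (evR_lc (v := cg r b l u) rfl (evR_lc (v := cg2 r b l u) rfl (evR_lc (v := cg3 r b l u) rfl (evR_lc (v := cg4 r b l u) rfl (evR_lc (v := cg5 r b l u) rfl (evR_lc (v := cg6 r b l u) rfl (evR_lc (v := cg7 r b l u) rfl (evR_lc (v := cg8 r b l u) rfl (evR_lc (v := cg9 r b l u) rfl (evR_lc (v := ch2 r b l u) rfl (evR_lc (v := ch3 r b l u) rfl (evR_lc (v := ch4 r b l u) rfl (evR_lc (v := ch5 r b l u) rfl (evR_lc (v := ch6 r b l u) rfl (evR_lc (v := cMt r b l u) rfl (evR_lc (v := cst r b l u) rfl (evR_lc (v := cts r b l u) rfl (evR_lc (v := cS r b l u) rfl (evR_lc (v := cy0 r b l u) rfl (evR_lc (v := cy1 r b l u) rfl (evR_lc (v := cy2 r b l u) rfl (evR_lc (v := cD0 r b l u) rfl (evR_lc (v := cD1 r b l u) rfl (evR_lc (v := cD2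 r b l u) rfl (evR_lc (v := cP0 r b l u) rfl (evR_lc (v := cP1 r b l u) rfl (evR_lc (v := cPt r b l u) rfl (evR_lc (v := cn0 r b l u) rfl (evR_lc (v := cn1 r b l u) rfl (evR_lc (v := cn2 r b l u) rfl (evR_lc (v := cNn r b l u) rfl (evR_lc (v := caa r b l u) rfl (evR_lc (v := ciS r b l u) rfl (evR_lc (v := ctt r b l u) rfl (evR_lc (v := cHq r b l u) rfl (evR_lc (v := cHp r b l u) rfl (rfl)))))))))))))))))))))))))))))))))))))

/-- Value of the program KRu. -/
noncomputable def RKRu (r b l u : ℝ) : ℝ := ((rv 281475213688832 * cHp r b l u) - cHq r b l u)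

set_option maxRecDepth 100000 in
theorem evR_KRu (r b l u : ℝ) : Ex.evR KRu [r, b, l, u] = RKRu r b l u :=
  evR_lc (v := ch r b l u) rfl (evR_lc (v := cg r b l u) rfl (evR_lc (v := cg2 r b l u) rfl (evR_lc (v := cg3 r b l u) rfl (evR_lc (v := cg4 r b l u) rfl (evR_lc (v := cg5 r b l u) rfl (evR_lc (v := cg6 r b l u) rfl (evR_lc (v := cg7 r b l u) rfl (evR_lc (v := cg8 r b l u) rfl (evR_lc (v := cg9 r b l u) rfl (evR_lc (v := ch2 r b l u) rfl (evR_lc (v := ch3 r b l u) rfl (evR_lc (v := ch4 r b l u) rfl (evR_lc (v := ch5 r b l u) rfl (evR_lc (v := ch6 r b l u) rfl (evR_lc (v := cMt r b l u) rfl (evR_lc (v := cst r b l u) rfl (evR_lc (v := cts r b l u) rfl (evR_lc (v := cS r b l u) rfl (evR_lc (v := cy0 r b l u) rfl (evR_lc (v := cy1 r b l u) rfl (evR_lc (v := cy2 r b l u) rfl (evR_lc (v := cD0 r b l u) rfl (evR_lc (v := cD1 r b l u) rfl (evR_lc (v := cD2 r b l u) rfl (evR_lc (v := cP0 r b l u) rfl (evR_lc (v := cP1 r b l u) rfl (evR_lc (v := cPt r b l u) rfl (evR_lc (v := cn0 r b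 l u) rfl (evR_lc (v := cn1 r b l u) rfl (evR_lc (v := cn2 r b l u) rfl (evR_lc (v := cNn r b l u) rfl (evR_lc (v := caa r b l u) rfl (evR_lc (v := ciS r b l u) rfl (evR_lc (v := ctt r b l u) rfl (evR_lc (v := cHq r b l u) rfl (evR_lc (v := cHp r b l u) rfl (rfl)))))))))))))))))))))))))))))))))))))

/-- Value of the program KXm. -/
noncomputable def RKXm (r b l u : ℝ) : ℝ := ((rv 281475052208128 * cS r b l u) - (r * (r * cHp r b l u)))

set_option maxRecDepth 100000 in
theorem evR_KXm (r b l u : ℝ) : Ex.evR KXm [r, b, l, u] = RKXm r b l u :=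
  evR_lc (v := ch r b l u) rfl (evR_lc (v := cg r b l u) rfl (evR_lc (v := cg2 r b l u) rfl (evR_lc (v := cg3 r b l u) rfl (evR_lc (v := cg4 r b l u) rfl (evR_lc (v := cg5 r b l u) rfl (evR_lc (v := cg6 r b l u) rfl (evR_lc (v := cg7 r b l u) rfl (evR_lc (v := cg8 r b l u) rfl (evR_lc (v := cg9 r b l u) rfl (evR_lc (v := ch2 r b l u) rfl (evR_lc (v := ch3 r b l u) rfl (evR_lc (v := ch4 r b l u) rfl (evR_lc (v := ch5 r b l u) rfl (evR_lc (v := ch6 r b l u) rfl (evR_lc (v := cMt r b l u) rfl (evR_lc (v := cst r b l u) rfl (evR_lc (v := cts r b l u) rfl (evR_lc (v := cS r b l u) rfl (evR_lc (v := cy0 r b l u) rfl (evR_lc (v := cy1 r b l u) rfl (evR_lc (v := cy2 r b l u) rfl (evR_lc (v := cD0 r b l u) rfl (evR_lc (v := cD1 r b l u) rfl (evR_lc (v := cD2 r b l u) rfl (evR_lc (v := cP0 r b l u) rfl (evR_lc (v := cP1 r b l u) rfl (evR_lc (v := cPt r b l u) rfl (evR_lc (v := cn0 r b l u) rfl (evR_lc (v := cn1 r b l u) rfl (evR_lc (v := cn2 r b l u) rfl (evR_lc (v := cNn r b l u) rfl (evR_lc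 (v := caa r b l u) rfl (evR_lc (v := ciS r b l u) rfl (evR_lc (v := ctt r b l u) rfl (evR_lc (v := cHq r b l u) rfl (evR_lc (v := cHp r b l u) rfl (rfl)))))))))))))))))))))))))))))))))))))

/-- Value of the program KBB. -/
noncomputable def RKBB (r b l u : ℝ) : ℝ := rv 281475513581568 - BbF r b

set_option maxRecDepth 100000 in
theorem evR_KBB (r b l u : ℝ) : Ex.evR KBB [r, b, l, u] = RKBB r b l u :=
  rfl

/-- Value of w. -/
noncomputable def nw (r b l u : ℝ) : ℝ := (rv 281491888144384 - (rv 281493343567872 * b))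

/-- Value of w2. -/
noncomputable def nw2 (r b l u : ℝ) : ℝ := (nw r b l u * nw r b l u)

/-- Value of r2. -/
noncomputable def nr2 (r b l u : ℝ) : ℝ := (b * b)

/-- Value of the program KCn. -/
noncomputable def RKCn (r b l u : ℝ) : ℝ := ((((rv 281475131637648 * nw2 r b l u) - rv 281525711011840) + (rv 281540206526464 * nr2 r b l u)) + (r * ((rv 281491888144384 - (rv 281496719982592 * (nr2 r b l u * b))) - (rv 281474998476000 * (nw2 r b l u * nw r b l u)))))

set_option maxRecDepth 100000 in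
theorem evR_KCn (r b l u : ℝ) : Ex.evR KCn [r, b, l, u] = RKCn r b l u :=
  evR_lc (v := nw r b l u) rfl (evR_lc (v := nw2 r b l u) rfl (evR_lc (v := nr2 r b l u) rfl (rfl)))

/-- Value of a2. -/
noncomputable def fa2 (r b l u : ℝ) : ℝ := (r * r)

/-- Value of a3. -/
noncomputable def fa3 (r b l u : ℝ) : ℝ := (fa2 r b l u * r)

/-- Value of a4. -/
noncomputable def fa4 (r b l u : ℝ) : ℝ := (fa3 r b l u * r)

/-- Value of a5. -/
noncomputable def fa5 (r b l u : ℝ) : ℝ := (fa4 r b l u * r)

/-- Value of a6. -/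
noncomputable def fa6 (r b l u : ℝ) : ℝ := (fa5 r b l u * r)

/-- Value of a7. -/
noncomputable def fa7 (r b l u : ℝ) : ℝ := (fa6 r b l u * r)

/-- Value of a8. -/
noncomputable def fa8 (r b l u : ℝ) : ℝ := (fa7 r b l u * r)

/-- Value of a9. -/
noncomputable def fa9 (r b l u : ℝ) : ℝ := (fa8 r b l u * r)

/-- Value of b2. -/
noncomputable def fb2 (r b l u : ℝ) : ℝ := (b * b)

/-- Value of b3. -/
noncomputable def fb3 (r b l u : ℝ) : ℝ := (fb2 r b l u * b)

/-- Value of b4. -/
noncomputable def fb4 (r b l u : ℝ) : ℝ := (fb3 r b l u * b)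

/-- Value of b5. -/
noncomputable def fb5 (r b l u : ℝ) : ℝ := (fb4 r b l u * b)

/-- Value of b6. -/
noncomputable def fb6 (r b l u : ℝ) : ℝ := (fb5 r b l u * b)

/-- Value of b7. -/
noncomputable def fb7 (r b l u : ℝ) : ℝ := (fb6 r b l u * b)

/-- Value of b8. -/
noncomputable def fb8 (r b l u : ℝ) : ℝ := (fb7 r b l u * b)

/-- Value of b9. -/
noncomputable def fb9 (r b l u : ℝ) : ℝ := (fb8 r b l u * b)

/-- Value of S. -/
noncomputable def fS (r b l u : ℝ) : ℝ := ((rv 281475245146112 + fa9 r b l u) + fb9 r b l u)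

/-- Value of mq. -/
noncomputable def fmq (r b l u : ℝ) : ℝ := ((((((fa3 r b l u * b) + (r * fb3 r b l u)) + (fa5 r b l u * b)) + (r * fb5 r b l u)) + (fa5 r b l u * fb3 r b l u)) + (fa3 r b l u * fb5 r b l u))

/-- Value of mp. -/
noncomputable def fmp (r b l u : ℝ) : ℝ := ((((((fa3 r b l u * fb3 r b l u) + (fa3 r b l u * fb3 r b l u)) + (fa3 r b l u * fb3 r b l u)) + (fa3 r b l u * fb3 r b l u)) + (fa3 r b l u * fb3 r b l u)) + (fa3 r b l u * fb3 r b l u))

/-- Value of Lp. -/
noncomputable def fLp (r b l u : ℝ) : ℝ := (((rv 281479808548864 * fS r b l u) - (rv 281485848346624 * fmq r b l u)) + (rv 281483432427520 * fmp r b l u))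

/-- Value of P0. -/
noncomputable def fP0 (r b l u : ℝ) : ℝ := (rv 281475782017024 - fS r b l u)

/-- Value of P1. -/
noncomputable def fP1 (r b l u : ℝ) : ℝ := ((rv 281475782017024 * fa9 r b l u) - fS r b l u)

/-- Value of Pt. -/
noncomputable def fPt (r b l u : ℝ) : ℝ := (fS r b l u - (rv 281475782017024 * fb9 r b l u))

/-- Value of Nx. -/
noncomputable def fNx (r b l u : ℝ) : ℝ := (((fP0 r b l u * fP0 r b l u) + (fP1 r b l u * fP1 r b l u)) + (fPt r b l u * fPt r b l u))

/-- Value of M. -/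
noncomputable def fM (r b l u : ℝ) : ℝ := ((fS r b l u * fLp r b l u) - fNx r b l u)

/-- Value of aa. -/
noncomputable def faa (r b l u : ℝ) : ℝ := (fP0 r b l u * (fPt r b l u)⁻¹)

/-- Value of iS. -/
noncomputable def fiS (r b l u : ℝ) : ℝ := (fS r b l u)⁻¹

/-- Value of tt. -/
noncomputable def ftt (r b l u : ℝ) : ℝ := (fPt r b l u * fiS r b l u)

/-- Value of Xv. -/
noncomputable def fXv (r b l u : ℝ) : ℝ := (fNx r b l u * (fiS r b l u * fiS r b l u))

/-- Value of tp3. -/
noncomputable def ftp3 (r b l u : ℝ) : ℝ := (l * ftt r b l u)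

/-- Value of x3. -/
noncomputable def fx3 (r b l u : ℝ) : ℝ := (faa r b l u - rv 281475312254976)

/-- Value of y3. -/
noncomputable def fy3 (r b l u : ℝ) : ℝ := (ftp3 r b l u - rv 281475054305280)

/-- Value of Ab3. -/
noncomputable def fAb3 (r b l u : ℝ) : ℝ := AbF (fx3 r b l u) (fy3 r b l u)

/-- Value of Bb3. -/
noncomputable def fBb3 (r b l u : ℝ) : ℝ := BbF (fx3 r b l u) (fy3 r b l u)

/-- Value of B23. -/
noncomputable def fB23 (r b l u : ℝ) : ℝ := (fBb3 r b l u * fBb3 r b l u)

/-- Value of L23. -/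
noncomputable def fL23 (r b l u : ℝ) : ℝ := (l * l)

/-- Value of L43. -/
noncomputable def fL43 (r b l u : ℝ) : ℝ := (fL23 r b l u * fL23 r b l u)

/-- Value of rhs3. -/
noncomputable def frhs3 (r b l u : ℝ) : ℝ := (((fL43 r b l u * ((rv 281475782017024 * fAb3 r b l u) + (rv 281475131637648 * fB23 r b l u))) - (rv 281474998476000 * ((fL43 r b l u * fL23 r b l u) * (fXv r b l u * (fB23 r b l u * fBb3 r b l u))))) + rv 281474976727040)

/-- Value of the program K3f. -/
noncomputable def RK3f (r b l u : ℝ) : ℝ := ((fM r b l u * (fS r b l u * fS r b l u)) - ((fNx r b l u * fNx r b l u) * frhs3 r b l u))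

set_option maxRecDepth 100000 in
theorem evR_K3f (r b l u : ℝ) : Ex.evR K3f [r, b, l, u] = RK3f r b l u :=
  evR_lc (v := fa2 r b l u) rfl (evR_lc (v := fa3 r b l u) rfl (evR_lc (v := fa4 r b l u) rfl (evR_lc (v := fa5 r b l u) rfl (evR_lc (v := fa6 r b l u) rfl (evR_lc (v := fa7 r b l u) rfl (evR_lc (v := fa8 r b l u) rfl (evR_lc (v := fa9 r b l u) rfl (evR_lc (v := fb2 r b l u) rfl (evR_lc (v := fb3 r b l u) rfl (evR_lc (v := fb4 r b l u) rfl (evR_lc (v := fb5 r b l u) rfl (evR_lc (v := fb6 r b l u) rfl (evR_lc (v := fb7 r b l u) rfl (evR_lc (v := fb8 r b l u) rfl (evR_lc (v := fb9 r b l u) rfl (evR_lc (v := fS r b l u) rfl (evR_lc (v := fmq r b l u) rfl (evR_lc (v := fmp r b l u) rfl (evR_lc (v := fLp r b l u) rfl (evR_lc (v := fP0 r b l u) rfl (evR_lc (v := fP1 r b l u) rfl (evR_lc (v := fPt r b l u) rfl (evR_lc (v := fNx r b l u) rfl (evR_lc (v := fM r b l u) rfl (evR_lc (v := faa r b l u) rfl (evR_lc (v := fiS r b l u) rfl (evR_lc (v := ftt r b l u) rfl (evR_lc (v := fXv r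 b l u) rfl (evR_lc (v := ftp3 r b l u) rfl (evR_lc (v := fx3 r b l u) rfl (evR_lc (v := fy3 r b l u) rfl (evR_lc (v := fAb3 r b l u) rfl (evR_lc (v := fBb3 r b l u) rfl (evR_lc (v := fB23 r b l u) rfl (evR_lc (v := fL23 r b l u) rfl (evR_lc (v := fL43 r b l u) rfl (evR_lc (v := frhs3 r b l u) rfl (rfl))))))))))))))))))))))))))))))))))))))

set_option maxRecDepth 100000 in
theorem evR_gsc0 (r b l u : ℝ) : Ex.evR (nthEx gsc 0) [r, b, l, u] = ((rv 281475131899904 * cS r b l u) - (r * cPt r b l u)) :=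
  evR_lc (v := ch r b l u) rfl (evR_lc (v := cg r b l u) rfl (evR_lc (v := cg2 r b l u) rfl (evR_lc (v := cg3 r b l u) rfl (evR_lc (v := cg4 r b l u) rfl (evR_lc (v := cg5 r b l u) rfl (evR_lc (v := cg6 r b l u) rfl (evR_lc (v := cg7 r b l u) rfl (evR_lc (v := cg8 r b l u) rfl (evR_lc (v := cg9 r b l u) rfl (evR_lc (v := ch2 r b l u) rfl (evR_lc (v := ch3 r b l u) rfl (evR_lc (v := ch4 r b l u) rfl (evR_lc (v := ch5 r b l u) rfl (evR_lc (v := ch6 r b l u) rfl (evR_lc (v := cMt r b l u) rfl (evR_lc (v := cst r b l u) rfl (evR_lc (v := cts r b l u) rfl (evR_lc (v := cS r b l u) rfl (evR_lc (v := cy0 r b l u) rfl (evR_lc (v := cy1 r b l u) rfl (evR_lc (v := cy2 r b l u) rfl (evR_lc (v := cD0 r b l u) rfl (evR_lc (v := cD1 r b l u) rfl (evR_lc (v := cD2 r b l u) rfl (evR_lc (v := cP0 r b l u) rfl (evR_lc (v := cP1 r b l u) rfl (evR_lc (v := cPt r b l u) rfl (evR_lc (v := cn0 r b l u) rfl (evR_lc (v := cn1 r b l u) rfl (evR_lc (v := cn2 r b l u) rfl (evR_lc (v := cNn r b l u) rfl (evR_lc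 (v := caa r b l u) rfl (evR_lc (v := ciS r b l u) rfl (evR_lc (v := ctt r b l u) rfl (rfl)))))))))))))))))))))))))))))))))))

end ST3

end Vale.Agent.Lib.P154
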